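import Mathlib.Algebra.Order.Archimedean.Real.Hom
import Mathlib.Algebra.Order.Quantale
import Mathlib.Algebra.Ring.IsFormallyReal
import Mathlib.Analysis.Calculus.DerivativeTest
import Mathlib.Analysis.Calculus.InverseFunctionTheorem.ContDiff
import Mathlib.Analysis.Calculus.SmoothSeries
import Mathlib.Analysis.Convex.Contractible
import Mathlib.Analysis.Fourier.AddCircle
import Mathlib.Analysis.PSeries
import Mathlib.Analysis.SpecialFunctions.Integrals.Basic
import Mathlib.Data.Int.Star
import Mathlib.Geometry.Manifold.Instances.Sphere
import Mathlib.Geometry.Manifold.Sheaf.Basic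
import Mathlib.Geometry.Manifold.VectorBundle.Riemannian
import Mathlib.Geometry.Manifold.VectorField.Pullback
import Mathlib.MeasureTheory.Integral.Prod
import Mathlib.Order.CompletePartialOrder
import Mathlib.RingTheory.PicardGroup
import Mathlib.RingTheory.TotallySplit
import Mathlib.Tactic
import Mathlib.Topology.Algebra.ProperAction.Basic
import Mathlib.Topology.Compactness.CompactlyGeneratedSpace
import Mathlib.Topology.Homotopy.Lifting
import Mathlib.Topology.Separation.CompletelyRegular

/-! The part of Mathlib that the development of this folder uses. -/
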